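import Mathlib

/-!
Mean norm of the standard Gaussian measure in dimensions three and four
(pool jobs P226-PB-CHI3 and P226-PB-CHI4).

Route: the standard Gaussian measure of a finite-dimensional real inner product
space has the density (2 pi)^(-d/2) exp(-|x|^2/2) with respect to the volume
(both measures are finite and have the same characteristic function), then
polar coordinates and a Gamma integral.
-/

open MeasureTheory ProbabilityTheory Real

namespace Vale.Agent.Lib.P226.H62

variable {E : Type*} [NormedAddCommGroup E] [InnerProductSpace ℝ E] [FiniteDimensional ℝ E]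
  [MeasurableSpace E] [BorelSpace E]

noncomputable def gprof (d : ℕ) (r : ℝ) : ℝ :=
  ((2 * π) ^ ((d : ℝ) / 2))⁻¹ * rexp (-(1 / 2 : ℝ) * r ^ 2)

theorem gprof_nonneg (d : ℕ) (r : ℝ) : 0 ≤ gprof d r := by
  unfold gprof
  positivity

theorem continuous_gprof (d : ℕ) : Continuous (gprof d) := by
  unfold gprof
  fun_prop

theorem integrable_gprof_norm :
    Integrable (fun x : E => gprof (Module.finrank ℝ E) ‖x‖) := by
  have h := GaussianFourier.integrable_cexp_neg_mul_sq_norm_add (V := E)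
    (b := ((1 / 2 : ℝ) : ℂ)) (by simp) 0 (0 : E)
  have h2 : Integrable (fun x : E => rexp (-(1 / 2 : ℝ) * ‖x‖ ^ 2)) := by
    have h3 := h.norm
    refine h3.congr (Filter.Eventually.of_forall fun x => ?_)
    simp only [zero_mul, add_zero]
    rw [Complex.norm_exp]
    congr 1
    norm_cast
  exact h2.const_mul _

/-- The measure with the Gaussian density with respect to the volume. -/
noncomputable def gmeas (E : Type*) [NormedAddCommGroup E] [InnerProductSpace ℝ E]
    [FiniteDimensional ℝ E] [MeasurableSpace E] [BorelSpace E] : Measure E :=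
  (volume : Measure E).withDensity (fun x => ENNReal.ofReal (gprof (Module.finrank ℝ E) ‖x‖))

instance isFiniteMeasure_gmeas : IsFiniteMeasure (gmeas E) :=
  isFiniteMeasure_withDensity_ofReal integrable_gprof_norm.2

theorem integral_gmeas {F : Type*} [NormedAddCommGroup F] [NormedSpace ℝ F] (g : E → F) :
    ∫ x, g x ∂(gmeas E) = ∫ x, gprof (Module.finrank ℝ E) ‖x‖ • g x := by
  unfold gmeas
  have hm : Measurable (fun x : E => ENNReal.ofReal (gprof (Module.finrank ℝ E) ‖x‖)) :=
    ((continuous_gprof _).measurable.comp measurable_norm).ennreal_ofReal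
  rw [integral_withDensity_eq_integral_toReal_smul hm
    (Filter.Eventually.of_forall fun x => ENNReal.ofReal_lt_top)]
  refine integral_congr_ae (Filter.Eventually.of_forall fun x => ?_)
  simp only [ENNReal.toReal_ofReal (gprof_nonneg _ _)]

theorem charFun_gmeas (t : E) :
    charFun (gmeas E) t = Complex.exp (-(‖t‖ : ℂ) ^ 2 / 2) := by
  rw [charFun_apply, integral_gmeas]
  have h := GaussianFourier.integral_cexp_neg_mul_sq_norm_add (V := E)
    (b := ((1 / 2 : ℝ) : ℂ)) (by simp) Complex.I t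
  have e1 : ∀ x : E, gprof (Module.finrank ℝ E) ‖x‖ • Complex.exp (((inner ℝ x t : ℝ) : ℂ) * Complex.I)
      = (((2 * π) ^ ((Module.finrank ℝ E : ℝ) / 2))⁻¹ : ℝ) •
        Complex.exp (-((1 / 2 : ℝ) : ℂ) * (‖x‖ : ℂ) ^ 2 + Complex.I * ((inner ℝ t x : ℝ) : ℂ)) := by
    intro x
    unfold gprof
    rw [Complex.exp_add, real_inner_comm, mul_smul]
    congr 1
    rw [Complex.real_smul, Complex.ofReal_exp]
    congr 2
    · push_cast; ring
    · ring
  simp_rw [e1]
  rw [integral_smul, h]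
  rw [Complex.real_smul]
  have hpos : (0 : ℝ) < 2 * π := by positivity
  have e2 : ((π : ℂ) / ((1 / 2 : ℝ) : ℂ)) ^ ((Module.finrank ℝ E : ℂ) / 2)
      = (((2 * π) ^ ((Module.finrank ℝ E : ℝ) / 2) : ℝ) : ℂ) := by
    rw [Complex.ofReal_cpow hpos.le]
    congr 1
    · push_cast; ring
    · push_cast; ring
  rw [e2, ← mul_assoc, ← Complex.ofReal_mul, inv_mul_cancel₀ (by positivity), Complex.ofReal_one,
    one_mul]
  congr 1
  rw [Complex.I_sq]
  push_cast
  ring

theorem stdGaussian_eq_gmeas : stdGaussian E = gmeas E := by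
  have : CompleteSpace E := FiniteDimensional.complete ℝ E
  refine Measure.ext_of_charFun (funext fun t => ?_)
  rw [charFun_stdGaussian, charFun_gmeas]

/-- The mean norm of the standard Gaussian as a one-dimensional integral. -/
theorem integral_norm_stdGaussian_eq [Nontrivial E] :
    ∫ x, ‖x‖ ∂(stdGaussian E) =
      Module.finrank ℝ E • (volume : Measure E).real (Metric.ball 0 1) •
        ∫ y in Set.Ioi (0 : ℝ), y ^ (Module.finrank ℝ E - 1) •
          (gprof (Module.finrank ℝ E) y • y) := by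
  rw [stdGaussian_eq_gmeas, integral_gmeas]
  exact integral_fun_norm_addHaar volume (fun r => gprof (Module.finrank ℝ E) r • r)

/-- The radial integral in closed form. -/
theorem radial_integral (d : ℕ) (hd : 1 ≤ d) :
    ∫ y in Set.Ioi (0 : ℝ), y ^ (d - 1) • (gprof d y • y) =
      ((2 * π) ^ ((d : ℝ) / 2))⁻¹ *
        ((1 / 2 : ℝ) ^ (-((d : ℝ) + 1) / 2) * (1 / 2) * Real.Gamma (((d : ℝ) + 1) / 2)) := by
  have h := integral_rpow_mul_exp_neg_mul_rpow (p := 2) (q := (d : ℝ)) (b := 1 / 2)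
    (by norm_num) (by have : (0 : ℝ) ≤ d := Nat.cast_nonneg d; linarith) (by norm_num)
  rw [← h, ← integral_const_mul]
  refine setIntegral_congr_fun measurableSet_Ioi (fun y hy => ?_)
  have hy0 : (0 : ℝ) < y := hy
  simp only [smul_eq_mul]
  unfold gprof
  have e1 : y ^ (d : ℝ) = y ^ (d - 1) * y := by
    rw [Real.rpow_natCast, ← pow_succ, Nat.sub_add_cancel hd]
  have e2 : y ^ (2 : ℝ) = y ^ 2 := by
    rw [← Real.rpow_natCast]; norm_num
  rw [e1, e2]
  ring

theorem integral_norm_stdGaussian_three :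
    ∫ y, ‖y‖ ∂(stdGaussian (EuclideanSpace ℝ (Fin 3))) = 2 * Real.sqrt (2 / Real.pi) := by
  rw [integral_norm_stdGaussian_eq]
  have hf : Module.finrank ℝ (EuclideanSpace ℝ (Fin 3)) = 3 := by simp
  rw [hf, radial_integral 3 (by norm_num)]
  have hv : (volume : Measure (EuclideanSpace ℝ (Fin 3))).real (Metric.ball 0 1) = π * 4 / 3 := by
    rw [Measure.real, EuclideanSpace.volume_ball_fin_three]
    simp
    positivity
  rw [hv]
  simp only [Nat.cast_ofNat, nsmul_eq_mul, smul_eq_mul]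
  have hpos : (0 : ℝ) < 2 * π := by positivity
  set s : ℝ := Real.sqrt (2 * π) with hsdef
  have hs0 : 0 < s := Real.sqrt_pos.mpr hpos
  have hs : s ^ 2 = 2 * π := Real.sq_sqrt hpos.le
  have h1 : (2 * π) ^ ((3 : ℝ) / 2) = s ^ 3 := by
    rw [show ((3 : ℝ) / 2) = (1 / 2) * ((3 : ℕ) : ℝ) by norm_num, Real.rpow_mul hpos.le,
      ← Real.sqrt_eq_rpow, Real.rpow_natCast]
  have h2 : Real.sqrt (2 / π) = 2 / s := by
    have e : (2 / π : ℝ) = (2 / s) ^ 2 := by
      rw [div_pow, hs]
      field_simp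
    rw [e, Real.sqrt_sq (by positivity)]
  have h3 : (1 / 2 : ℝ) ^ (-((3 : ℝ) + 1) / 2) = 4 := by
    rw [show (-((3 : ℝ) + 1) / 2) = -((2 : ℕ) : ℝ) by norm_num, Real.rpow_neg (by norm_num),
      Real.rpow_natCast]
    norm_num
  have h4 : Real.Gamma (((3 : ℝ) + 1) / 2) = 1 := by
    rw [show ((3 : ℝ) + 1) / 2 = 2 by norm_num]
    exact Real.Gamma_two
  rw [h1, h2, h3, h4]
  have hs3 : s ^ 3 = s * (2 * π) := by rw [← hs]; ring
  rw [hs3]
  field_simp
  ring

theorem integral_norm_stdGaussian_four :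
    ∫ q, ‖q‖ ∂(stdGaussian (EuclideanSpace ℝ (Fin 4))) = 3 * Real.sqrt (2 * Real.pi) / 4 := by
  rw [integral_norm_stdGaussian_eq]
  have hf : Module.finrank ℝ (EuclideanSpace ℝ (Fin 4)) = 4 := by simp
  rw [hf, radial_integral 4 (by norm_num)]
  have hv : (volume : Measure (EuclideanSpace ℝ (Fin 4))).real (Metric.ball 0 1) = π ^ 2 / 2 := by
    rw [Measure.real, InnerProductSpace.volume_ball_of_dim_even (k := 2) (by simp)]
    simp
    positivity
  rw [hv]
  simp only [Nat.cast_ofNat, nsmul_eq_mul, smul_eq_mul]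
  have hpos : (0 : ℝ) < 2 * π := by positivity
  have h1 : (2 * π) ^ ((4 : ℝ) / 2) = (2 * π) ^ 2 := by
    rw [show ((4 : ℝ) / 2) = ((2 : ℕ) : ℝ) by norm_num, Real.rpow_natCast]
  have h3 : (1 / 2 : ℝ) ^ (-((4 : ℝ) + 1) / 2) = 4 * Real.sqrt 2 := by
    have hx0 : (0 : ℝ) < (1 / 2 : ℝ) ^ (-((4 : ℝ) + 1) / 2) := Real.rpow_pos_of_pos (by norm_num) _
    have hx2 : ((1 / 2 : ℝ) ^ (-((4 : ℝ) + 1) / 2)) ^ 2 = 32 := by
      rw [← Real.rpow_natCast, ← Real.rpow_mul (by norm_num),
        show (-((4 : ℝ) + 1) / 2 * ((2 : ℕ) : ℝ)) = -((5 : ℕ) : ℝ) by norm_num,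
        Real.rpow_neg (by norm_num), Real.rpow_natCast]
      norm_num
    have hy2 : (4 * Real.sqrt 2) ^ 2 = 32 := by
      rw [mul_pow, Real.sq_sqrt (by norm_num)]
      norm_num
    have hy0 : (0 : ℝ) < 4 * Real.sqrt 2 := by positivity
    nlinarith [hx0, hy0, hx2, hy2]
  have h4 : Real.Gamma (((4 : ℝ) + 1) / 2) = 3 / 4 * Real.sqrt π := by
    rw [show ((4 : ℝ) + 1) / 2 = (1 / 2 + 1) + 1 by norm_num, Real.Gamma_add_one (by norm_num),
      Real.Gamma_add_one (by norm_num), Real.Gamma_one_half_eq]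
    ring
  rw [h1, h3, h4, Real.sqrt_mul (by norm_num) π]
  field_simp
  ring

end Vale.Agent.Lib.P226.H62
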